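import Vale.Agent.Lib.P329.Tagged

namespace Vale.Agent.Results.P329.AperiodicOverGroups

open Vale.Agent.Lib.P329

/-- Let the group `G` be a homomorphic image of a subgroup `K` of a finite direct product of
finite groups `H i` (that is, `G` divides the product), where each `H i` is of one of three
types: nilpotent of class at most three; or with a commutative normal subgroup `A` such that
the quotient by `A` is commutative of prime exponent `p` (all commutators and all `p`-th powers
lie in `A`); or with a normal subgroup `A` all of whose elements square to the identity and
whose index divides four.  Let `α` be a finite alphabet and `g : α → G` an assignment of group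
elements to the letters.  Then

* for every set `P` of elements of `G`, the language of all words whose image (the product of
  the images of the letters) lies in `P` is denoted by a generalized regular expression of
  star height at most one;
* for every star-free expression `E` over the alphabet `G × α`, the language of all words `w`
  whose tagged word `tagged g 1 w` (each letter of `w` paired with the image of the part of
  `w` before it) belongs to the language of `E` is denoted by a generalized regular expression
  of star height at most one. -/
theorem result (α : Type) [Fintype α] (G : Type) [Group G]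
    (ι : Type) [Fintype ι] (H : ι → Type) [∀ i, Group (H i)] [∀ i, Finite (H i)]
    (hH : ∀ i,
      (∃ _ : Group.IsNilpotent (H i), Group.nilpotencyClass (H i) ≤ 3) ∨
      (∃ (p : ℕ) (A : Subgroup (H i)), p.Prime ∧ A.Normal ∧ (∀ a ∈ A, ∀ b ∈ A, a * b = b * a) ∧
        (∀ x y : H i, x * y * x⁻¹ * y⁻¹ ∈ A) ∧ (∀ x : H i, x ^ p ∈ A)) ∨
      (∃ A : Subgroup (H i), A.Normal ∧ (∀ a ∈ A, a * a = 1) ∧ A.index ∣ 4))
    (K : Subgroup (∀ i, H i)) (f : K →* G) (hf : Function.Surjective f) (g : α → G) :
    (∀ P : Set G, ∃ e : GRegex α, e.starHeight ≤ 1 ∧
      e.lang = {w : List α | (w.map g).prod ∈ P}) ∧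
    (∀ E : GRegex (G × α), E.starHeight = 0 → ∃ e : GRegex α, e.starHeight ≤ 1 ∧
      e.lang = {w : List α | tagged g 1 w ∈ E.lang}) :=
  gsh_divisor_tagged α G ι H hH K f hf g

end Vale.Agent.Results.P329.AperiodicOverGroups
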