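import Vale.Agent.Lib.P329.Tagged
import Vale.Agent.Lib.P329.StarFreeCount
import Vale.Agent.Lib.P329.Main

namespace Vale.Agent.Results.P329.HeightOneCollection

open Vale.Agent.Lib.P329

/-- One statement collecting three landed results on generalized star height at most one.

(1) Let the group `G` be a homomorphic image of a subgroup `K` of a finite direct product of
finite groups `H i`, each of one of three types: nilpotent of class at most three; or with a
commutative normal subgroup `A` such that all commutators and all `p`-th powers lie in `A`,
`p` a prime; or with a normal subgroup `A` all of whose elements square to the identity and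
whose index divides four.  For a finite alphabet `α` and `g : α → G`: for every set `P` of
elements of `G` the language of all words whose image lies in `P`, and for every star-free
expression `E` over `G × α` the language of all words `w` with `tagged g 1 w` in the language
of `E`, are denoted by generalized regular expressions of star height at most one.

(2) For star-free expressions `K i` over a finite alphabet, a positive integer `n` and a set `P`
of vectors of residues modulo `n`, the language of all words `w` whose vector of the numbers,
modulo `n`, of initial segments of `w` in the language of `K i` lies in `P` is denoted by a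
generalized regular expression of star height at most one.

(3) Over a finite alphabet, every language that is a union of classes of the congruence
`w ~ w'` iff for every word `u` of length at most three the numbers of occurrences of `u` as a
scattered subword of `w` and of `w'` are congruent modulo `n` is denoted by a generalized
regular expression of star height at most one. -/
theorem result :
    (∀ (α : Type) [Fintype α] (G : Type) [Group G]
      (ι : Type) [Fintype ι] (H : ι → Type) [∀ i, Group (H i)] [∀ i, Finite (H i)],
      (∀ i,
        (∃ _ : Group.IsNilpotent (H i), Group.nilpotencyClass (H i) ≤ 3) ∨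
        (∃ (p : ℕ) (A : Subgroup (H i)), p.Prime ∧ A.Normal ∧
          (∀ a ∈ A, ∀ b ∈ A, a * b = b * a) ∧
          (∀ x y : H i, x * y * x⁻¹ * y⁻¹ ∈ A) ∧ (∀ x : H i, x ^ p ∈ A)) ∨
        (∃ A : Subgroup (H i), A.Normal ∧ (∀ a ∈ A, a * a = 1) ∧ A.index ∣ 4)) →
      ∀ (K : Subgroup (∀ i, H i)) (f : K →* G), Function.Surjective f → ∀ (g : α → G),
        (∀ P : Set G, ∃ e : GRegex α, e.starHeight ≤ 1 ∧
          e.lang = {w : List α | (w.map g).prod ∈ P}) ∧
        (∀ E : GRegex (G × α), E.starHeight = 0 → ∃ e : GRegex α, e.starHeight ≤ 1 ∧
          e.lang = {w : List α | tagged g 1 w ∈ E.lang})) ∧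
    (∀ (α : Type) [Fintype α] (ι : Type) [Fintype ι] (K : ι → GRegex α),
      (∀ i, (K i).starHeight = 0) → ∀ (n : ℕ), 0 < n → ∀ (P : Set (ι → ZMod n)),
        ∃ e : GRegex α, e.starHeight ≤ 1 ∧ e.lang = {w : List α | (fun i =>
          ((Set.ncard {v : List α | v <+: w ∧ v ∈ (K i).lang} : ℕ) : ZMod n)) ∈ P}) ∧
    (∀ (α : Type) [Fintype α] [DecidableEq α] (n : ℕ), 0 < n → ∀ (L : Language α),
      (∀ w w' : List α,
        (∀ u : List α, u.length ≤ 3 →
          (List.sublists w).count u ≡ (List.sublists w').count u [MOD n]) →
        (w ∈ L ↔ w' ∈ L)) →
      ∃ e : GRegex α, e.starHeight ≤ 1 ∧ e.lang = L) :=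
  ⟨fun α _ G _ ι _ H _ _ hH K f hf g => gsh_divisor_tagged α G ι H hH K f hf g,
    fun α _ ι _ K hK n hn P => gsh_starFree_count α ι K hK n hn P,
    fun _ _ _ n hn L hL => gsh_of_saturated' n hn L hL⟩

end Vale.Agent.Results.P329.HeightOneCollection
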