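import Vale.Agent.Lib.P329.Class3Formula

namespace Vale.Agent.Results.P329.NilpotentClass3

open Vale.Agent.Lib.P329

/-- Every language recognized by a finite nilpotent group of nilpotency class at most three
has generalized star height at most one: for every finite alphabet `α`, every finite nilpotent
group `G` of class at most three, every assignment `g : α → G` of group elements to the letters
(that is, every monoid morphism from the words over `α` to `G`) and every set `P` of elements
of `G`, the language of all words whose image lies in `P` is denoted by a generalized regular
expression of star height at most one. -/
theorem result (α : Type) [Fintype α] (G : Type) [Group G] [Finite G] [Group.IsNilpotent G]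
    (hG : Group.nilpotencyClass G ≤ 3) (g : α → G) (P : Set G) :
    ∃ e : GRegex α, e.starHeight ≤ 1 ∧ e.lang = {w : List α | (w.map g).prod ∈ P} := by
  classical
  exact gsh_nil3 hG g P

end Vale.Agent.Results.P329.NilpotentClass3
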