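import Vale.Agent.Lib.P329.Main

namespace Vale.Agent.Results.P329.SubwordCongruence3

open Vale.Agent.Lib.P329

/-- Over a finite alphabet, every language that is a union of classes of the congruence
`w ~ w'` iff for every word `u` of length at most three the numbers of occurrences of `u`
as a scattered subword of `w` and of `w'` are congruent modulo `n` (for a fixed `n ≥ 1`)
is denoted by a generalized regular expression of star height at most one. -/
theorem result (α : Type) [Fintype α] [DecidableEq α] (n : ℕ) (hn : 0 < n) (L : Language α)
    (hL : ∀ w w' : List α,
      (∀ u : List α, u.length ≤ 3 →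
        (List.sublists w).count u ≡ (List.sublists w').count u [MOD n]) →
      (w ∈ L ↔ w' ∈ L)) :
    ∃ e : GRegex α, e.starHeight ≤ 1 ∧ e.lang = L :=
  gsh_of_saturated' n hn L hL

end Vale.Agent.Results.P329.SubwordCongruence3
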